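import Vale.Agent.P284Z.Defs
import Mathlib.Analysis.Complex.JensenFormula
import Mathlib.Topology.Semicontinuity.Basic

/-! P284Z, block S: the three spheres inequality for plurisubharmonic functions. -/

open scoped Topology
open Filter Set Metric MeasureTheory

namespace Vale.Agent.P284Z.S

/-- an upper semicontinuous function which is bounded below is integrable on circles -/
theorem circInt {φ : ℂ → ℝ} {T : ℝ} (hu : UpperSemicontinuousOn φ (sphere (0 : ℂ) 1))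
    (hT : ∀ ζ ∈ sphere (0 : ℂ) 1, -T ≤ φ ζ) : CircleIntegrable φ 0 1 := by
  have hm : ∀ θ : ℝ, circleMap 0 1 θ ∈ sphere (0 : ℂ) 1 := fun θ =>
    circleMap_mem_sphere 0 zero_le_one θ
  have h1 : UpperSemicontinuous (φ ∘ circleMap 0 1) := by
    rw [← upperSemicontinuousOn_univ_iff]
    exact hu.comp (continuous_circleMap 0 1).continuousOn fun θ _ => hm θ
  obtain ⟨M, hM⟩ := hu.bddAbove_of_isCompact (isCompact_sphere 0 1)
  rw [circleIntegrable_def]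
  refine (intervalIntegrable_const (c := max T M)).mono_fun'
    h1.measurable.aestronglyMeasurable (Eventually.of_forall fun θ => ?_)
  have h2 := hT _ (hm θ)
  have h3 : φ (circleMap 0 1 θ) ≤ M := hM (mem_image_of_mem φ (hm θ))
  simp only [Real.norm_eq_abs]
  exact abs_le.2 ⟨by linarith [le_max_left T M], h3.trans (le_max_right T M)⟩

/-- the maximum principle on an annulus, against the harmonic function `a + s log |ζ|` -/
theorem annulus {φ : ℂ → ℝ} {r R a s T : ℝ} (hr : 0 < r)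
    (hu : UpperSemicontinuousOn φ (closedBall 0 R))
    (hT : ∀ ζ ∈ closedBall (0 : ℂ) R, -T ≤ φ ζ)
    (hsub : ∀ (ζ₀ : ℂ) (δ : ℝ), 0 < δ → ‖ζ₀‖ + δ ≤ R →
      φ ζ₀ ≤ Real.circleAverage (fun ζ : ℂ => φ (ζ₀ + ζ * δ)) 0 1)
    (h1 : ∀ ζ : ℂ, ‖ζ‖ = r → φ ζ ≤ a + s * Real.log r)
    (h2 : ∀ ζ : ℂ, ‖ζ‖ = R → φ ζ ≤ a + s * Real.log R) {ζ₁ : ℂ} (hr₁ : r ≤ ‖ζ₁‖)
    (hR₁ : ‖ζ₁‖ ≤ R) : φ ζ₁ ≤ a + s * Real.log ‖ζ₁‖ := by
  have hR : 0 < R := hr.trans_le (hr₁.trans hR₁)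
  refine le_of_forall_pos_le_add fun ε' hε' => ?_
  obtain ⟨ε, hε, hεR⟩ : ∃ ε > (0 : ℝ), ε * R ^ 2 = ε' :=
    ⟨ε' / R ^ 2, by positivity, by field_simp⟩
  let A : Set ℂ := closedBall 0 R ∩ {ζ | r ≤ ‖ζ‖}
  have hA : IsCompact A :=
    (isCompact_closedBall 0 R).inter_right (isClosed_le continuous_const continuous_norm)
  have hmem : ∀ ζ : ℂ, r ≤ ‖ζ‖ → ‖ζ‖ ≤ R → ζ ∈ A := fun ζ h h' =>
    ⟨mem_closedBall_zero_iff.2 h', h⟩
  let ψ : ℂ → ℝ := fun ζ => φ ζ + (-s * Real.log ‖ζ‖ + ε * ‖ζ‖ ^ 2)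
  have hψ : UpperSemicontinuousOn ψ A := by
    refine (hu.mono inter_subset_left).add (ContinuousOn.upperSemicontinuousOn ?_)
    refine ContinuousOn.add (continuousOn_const.mul ?_) (by fun_prop)
    exact continuous_norm.continuousOn.log fun ζ hζ => (hr.trans_le hζ.2).ne'
  obtain ⟨ζ₀, hζ₀, hmax⟩ := hψ.exists_isMaxOn ⟨ζ₁, hmem ζ₁ hr₁ hR₁⟩ hA
  have hr₀ : r ≤ ‖ζ₀‖ := hζ₀.2
  have hR₀ : ‖ζ₀‖ ≤ R := mem_closedBall_zero_iff.1 hζ₀.1
  have hsq : ε * ‖ζ₀‖ ^ 2 ≤ ε' := by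
    rw [← hεR]
    exact mul_le_mul_of_nonneg_left (pow_le_pow_left₀ (norm_nonneg _) hR₀ 2) hε.le
  have key : ψ ζ₀ ≤ a + ε' := by
    rcases hr₀.eq_or_lt with h | hlt
    · have := h1 ζ₀ h.symm
      simp only [ψ]
      rw [h] at this
      linarith
    rcases hR₀.eq_or_lt with h | hlt'
    · have := h2 ζ₀ h
      simp only [ψ]
      rw [← h] at this
      linarith
    exfalso
    obtain ⟨δ, hδ, hδ1, hδ2⟩ : ∃ δ > (0 : ℝ), δ ≤ ‖ζ₀‖ - r ∧ δ ≤ R - ‖ζ₀‖ :=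
      ⟨min (‖ζ₀‖ - r) (R - ‖ζ₀‖), lt_min (by linarith) (by linarith), min_le_left _ _,
        min_le_right _ _⟩
    have hin : ∀ ζ ∈ closedBall (0 : ℂ) 1, r ≤ ‖ζ₀ + ζ * δ‖ ∧ ‖ζ₀ + ζ * δ‖ ≤ R := by
      intro ζ hζ
      have h3 : ‖ζ * δ‖ ≤ δ := by
        rw [norm_mul, Complex.norm_real, Real.norm_of_nonneg hδ.le]
        exact mul_le_of_le_one_left hδ.le (mem_closedBall_zero_iff.1 hζ)
      have h4 := norm_add_le ζ₀ (ζ * δ)
      have h5 := norm_sub_le (ζ₀ + ζ * δ) (ζ * δ)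
      rw [add_sub_cancel_right] at h5
      constructor <;> linarith
    let g₁ : ℂ → ℂ := fun ζ => ζ₀ + ζ * δ
    let g₂ : ℂ → ℂ := fun ζ => Complex.exp (-(2 * ε : ℝ) * ((starRingEnd ℂ) ζ₀ * (ζ * δ)))
    have hg₁ : ∀ ζ ∈ closedBall (0 : ℂ) 1, g₁ ζ ≠ 0 := fun ζ hζ =>
      norm_pos_iff.1 (hr.trans_le (hin ζ hζ).1)
    have hg₂ : ∀ ζ, g₂ ζ ≠ 0 := fun ζ => Complex.exp_ne_zero _
    have a₁ : Real.circleAverage (fun ζ => Real.log ‖g₁ ζ‖) 0 1 = Real.log ‖ζ₀‖ := by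
      have := AnalyticOnNhd.circleAverage_log_norm_of_ne_zero (R := 1) (c := 0) (g := g₁)
        (fun ζ _ => by simp only [g₁]; fun_prop) (by simpa using hg₁)
      simpa [g₁] using this
    have a₂ : Real.circleAverage (fun ζ => Real.log ‖g₂ ζ‖) 0 1 = 0 := by
      have := AnalyticOnNhd.circleAverage_log_norm_of_ne_zero (R := 1) (c := 0) (g := g₂)
        (fun ζ _ => by simp only [g₂]; fun_prop) (fun ζ _ => hg₂ ζ)
      simpa [g₂] using this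
    have i₁ : CircleIntegrable (fun ζ => s • Real.log ‖g₁ ζ‖) 0 1 := by
      refine ContinuousOn.circleIntegrable zero_le_one (ContinuousOn.const_smul ?_ s)
      exact ContinuousOn.log (by simp only [g₁]; fun_prop)
        fun ζ hζ => norm_ne_zero_iff.2 (hg₁ ζ (sphere_subset_closedBall hζ))
    have i₂ : CircleIntegrable (fun ζ => Real.log ‖g₂ ζ‖) 0 1 := by
      refine ContinuousOn.circleIntegrable zero_le_one ?_
      exact ContinuousOn.log (by simp only [g₂]; fun_prop)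
        fun ζ _ => norm_ne_zero_iff.2 (hg₂ ζ)
    have i₀ : CircleIntegrable (fun ζ : ℂ => φ (ζ₀ + ζ * δ)) 0 1 := by
      refine circInt (T := T) ?_ fun ζ hζ =>
        hT _ (mem_closedBall_zero_iff.2 (hin ζ (sphere_subset_closedBall hζ)).2)
      exact hu.comp (g := g₁) (by simp only [g₁]; fun_prop) fun ζ hζ =>
        mem_closedBall_zero_iff.2 (hin ζ (sphere_subset_closedBall hζ)).2
    have h6 : Real.circleAverage (fun ζ : ℂ => φ (ζ₀ + ζ * δ) - s • Real.log ‖g₁ ζ‖ -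
        Real.log ‖g₂ ζ‖) 0 1 ≤ ψ ζ₀ - ε * ‖ζ₀‖ ^ 2 - ε * δ ^ 2 := by
      refine Real.circleAverage_mono_on_of_le_circle ((i₀.sub i₁).sub i₂) fun ζ hζ => ?_
      rw [abs_one] at hζ
      have h7 : ψ (ζ₀ + ζ * δ) ≤ ψ ζ₀ :=
        hmax (hmem _ (hin ζ (sphere_subset_closedBall hζ)).1 (hin ζ (sphere_subset_closedBall hζ)).2)
      have h8 : Real.log ‖g₂ ζ‖ = -(2 * ε) * ((starRingEnd ℂ) ζ₀ * (ζ * δ)).re := by
        simp only [g₂]
        rw [Complex.norm_exp, Real.log_exp, neg_mul, Complex.neg_re, Complex.re_ofReal_mul, neg_mul]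
      have h9 : ‖ζ₀ + ζ * δ‖ ^ 2 =
          ‖ζ₀‖ ^ 2 + δ ^ 2 + 2 * ((starRingEnd ℂ) ζ₀ * (ζ * δ)).re := by
        have h10 : ‖ζ * δ‖ = δ := by
          rw [norm_mul, Complex.norm_real, Real.norm_of_nonneg hδ.le,
            mem_sphere_zero_iff_norm.1 hζ, one_mul]
        rw [← h10, Complex.sq_norm, Complex.sq_norm, Complex.sq_norm, h10, Complex.normSq_add]
        simp only [Complex.mul_re, Complex.conj_re, Complex.conj_im]
        ring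
      have h11 : ψ (ζ₀ + ζ * δ) = φ (ζ₀ + ζ * δ) +
          (-s * Real.log ‖g₁ ζ‖ + ε * ‖ζ₀ + ζ * δ‖ ^ 2) := rfl
      rw [h8, smul_eq_mul]
      rw [h11, h9] at h7
      linarith
    have i₃ : CircleIntegrable (fun ζ : ℂ => φ (ζ₀ + ζ * δ) - s • Real.log ‖g₁ ζ‖) 0 1 :=
      i₀.sub i₁
    rw [Real.circleAverage_fun_sub i₃ i₂, Real.circleAverage_fun_sub i₀ i₁,
      Real.circleAverage_fun_smul, a₁, a₂, smul_eq_mul] at h6
    have h12 := hsub ζ₀ δ hδ (by linarith)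
    have h13 : ψ ζ₀ = φ ζ₀ + (-s * Real.log ‖ζ₀‖ + ε * ‖ζ₀‖ ^ 2) := rfl
    have h14 : 0 < ε * δ ^ 2 := by positivity
    linarith
  have h15 : ψ ζ₁ ≤ ψ ζ₀ := hmax (hmem ζ₁ hr₁ hR₁)
  have h16 : ψ ζ₁ = φ ζ₁ + (-s * Real.log ‖ζ₁‖ + ε * ‖ζ₁‖ ^ 2) := rfl
  have h17 : 0 ≤ ε * ‖ζ₁‖ ^ 2 := by positivity
  linarith

variable {W : Type} [NormedAddCommGroup W] [NormedSpace ℂ W]

/-- three spheres, for plurisubharmonic functions which are bounded below -/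
theorem three_psh {u : W → ℝ} {U : Set W} (hu : Psh u U) {q : W} {r R a s T : ℝ} (hr : 0 < r)
    (hU : closedBall q R ⊆ U) (hT : ∀ z ∈ closedBall q R, -T ≤ u z)
    (h1 : ∀ z, ‖z - q‖ = r → u z ≤ a + s * Real.log r)
    (h2 : ∀ z, ‖z - q‖ = R → u z ≤ a + s * Real.log R) {z : W} (hrz : r ≤ ‖z - q‖)
    (hRz : ‖z - q‖ ≤ R) : u z ≤ a + s * Real.log ‖z - q‖ := by
  have ht : 0 < ‖z - q‖ := hr.trans_le hrz
  have htc : ((‖z - q‖ : ℝ) : ℂ) ≠ 0 := Complex.ofReal_ne_zero.2 ht.ne'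
  obtain ⟨w, hw, hz⟩ : ∃ w : W, ‖w‖ = 1 ∧ q + ((‖z - q‖ : ℝ) : ℂ) • w = z := by
    refine ⟨((‖z - q‖ : ℝ) : ℂ)⁻¹ • (z - q), ?_, ?_⟩
    · rw [norm_smul, norm_inv, Complex.norm_real, Real.norm_of_nonneg ht.le,
        inv_mul_cancel₀ ht.ne']
    · rw [smul_smul, mul_inv_cancel₀ htc, one_smul, add_sub_cancel]
  have hn : ∀ ζ : ℂ, ‖q + ζ • w - q‖ = ‖ζ‖ := fun ζ => by
    rw [add_sub_cancel_left, norm_smul, hw, mul_one]
  have hb : ∀ ζ : ℂ, ‖ζ‖ ≤ R → q + ζ • w ∈ closedBall q R := fun ζ hζ => by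
    rw [mem_closedBall_iff_norm, hn]; exact hζ
  have h := annulus (φ := fun ζ : ℂ => u (q + ζ • w)) (r := r) (R := R) (a := a) (s := s) (T := T)
    hr (hu.1.comp (g := fun ζ : ℂ => q + ζ • w) (by fun_prop)
      fun ζ hζ => hU (hb ζ (mem_closedBall_zero_iff.1 hζ)))
    (fun ζ hζ => hT _ (hb ζ (mem_closedBall_zero_iff.1 hζ))) ?_
    (fun ζ hζ => h1 _ (by rw [hn, hζ])) (fun ζ hζ => h2 _ (by rw [hn, hζ]))
    (ζ₁ := ((‖z - q‖ : ℝ) : ℂ)) (by rwa [Complex.norm_real, Real.norm_of_nonneg ht.le])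
    (by rwa [Complex.norm_real, Real.norm_of_nonneg ht.le])
  · rwa [hz, Complex.norm_real, Real.norm_of_nonneg ht.le] at h
  intro ζ₀ δ hδ hle
  have e : ∀ ζ : ℂ, q + ζ₀ • w + ζ • ((δ : ℂ) • w) = q + (ζ₀ + ζ * δ) • w := fun ζ => by
    rw [smul_smul, add_smul, add_assoc]
  have h3 := hu.2 (q + ζ₀ • w) ((δ : ℂ) • w) fun ζ hζ => by
    rw [e]
    refine hU (hb _ ((norm_add_le _ _).trans ?_))
    rw [norm_mul, Complex.norm_real, Real.norm_of_nonneg hδ.le]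
    have := mul_le_of_le_one_left hδ.le hζ
    linarith
  simpa only [e] using h3

/-- three spheres, multiplicative form -/
theorem three {P : W → ℝ} {U : Set W} (hP : LPsh P U) {q : W} {r R A s : ℝ} (hr : 0 < r)
    (hA : 0 < A) (hU : closedBall q R ⊆ U) (h1 : ∀ z, ‖z - q‖ = r → P z ≤ A * r ^ s)
    (h2 : ∀ z, ‖z - q‖ = R → P z ≤ A * R ^ s) {z : W} (hrz : r ≤ ‖z - q‖) (hRz : ‖z - q‖ ≤ R) :
    P z ≤ A * ‖z - q‖ ^ s := by
  have hR : 0 < R := hr.trans_le (hrz.trans hRz)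
  have ht : 0 < ‖z - q‖ := hr.trans_le hrz
  have hm : 0 < min (A * r ^ s) (A * R ^ s) := lt_min (by positivity) (by positivity)
  obtain ⟨T, hT⟩ : ∃ T : ℝ, Real.exp (-T) = min (A * r ^ s) (A * R ^ s) :=
    ⟨-Real.log (min (A * r ^ s) (A * R ^ s)), by rw [neg_neg, Real.exp_log hm]⟩
  have hl : ∀ t : ℝ, 0 < t → Real.log (A * t ^ s) = Real.log A + s * Real.log t := fun t h => by
    rw [Real.log_mul hA.ne' (by positivity), Real.log_rpow h]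
  have hup : ∀ t x : ℝ, 0 < t → x ≤ A * t ^ s → Real.exp (-T) ≤ A * t ^ s →
      lg T x ≤ Real.log A + s * Real.log t := fun t x h h' h'' => by
    rw [← hl t h]
    exact Real.log_le_log (lt_max_of_lt_right (Real.exp_pos _)) (max_le h' h'')
  have h := three_psh (hP.2 T) (a := Real.log A) (s := s) (T := T) hr hU
    (fun z _ => by
      rw [lg, Real.le_log_iff_exp_le (lt_max_of_lt_right (Real.exp_pos _))]
      exact le_max_right _ _)
    (fun z hz => hup r _ hr (h1 z hz) (hT ▸ min_le_left _ _))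
    (fun z hz => hup R _ hR (h2 z hz) (hT ▸ min_le_right _ _)) hrz hRz
  rw [← hl _ ht, lg, Real.log_le_log_iff (lt_max_of_lt_right (Real.exp_pos _)) (by positivity)] at h
  exact (le_max_left _ _).trans h

/-- A lower bound at the scale `r₁` propagates to all the smaller balls. -/
theorem lower_prop {P : W → ℝ} {U : Set W} (hP : LPsh P U) {q z₁ : W} {r₁ R S μ s : ℝ}
    (hs : 0 ≤ s) (hμ : 0 < μ) (hr₁ : r₁ ≤ R) (hU : closedBall q R ⊆ U)
    (hS : ∀ z ∈ closedBall q R, P z ≤ S) (hz₁ : z₁ ∈ closedBall q r₁) (hμ₁ : μ < P z₁)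
    (hSμ : S * r₁ ^ s ≤ μ * R ^ s) {r : ℝ} (hr : 0 < r) (hrr : r ≤ r₁) :
    ∃ z ∈ closedBall q r, μ / r₁ ^ s * r ^ s < P z := by
  have h0 : 0 < r₁ := hr.trans_le hrr
  have h1 : 0 < r₁ ^ s := by positivity
  by_contra hcon
  push Not at hcon
  have h2 : ∀ t : ℝ, 0 ≤ t → t ≤ r₁ → μ / r₁ ^ s * t ^ s ≤ μ := fun t ht ht' => by
    rw [div_mul_eq_mul_div, div_le_iff₀ h1]
    exact mul_le_mul_of_nonneg_left (Real.rpow_le_rpow ht ht' hs) hμ.le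
  have h3 : ‖z₁ - q‖ ≤ r₁ := mem_closedBall_iff_norm.1 hz₁
  by_cases h4 : ‖z₁ - q‖ ≤ r
  · have := hcon z₁ (mem_closedBall_iff_norm.2 h4)
    have := h2 r hr.le hrr
    linarith
  have h5 := three hP (A := μ / r₁ ^ s) (s := s) hr (by positivity) hU
    (fun z hz => hcon z (mem_closedBall_iff_norm.2 hz.le))
    (fun z hz => (hS z (mem_closedBall_iff_norm.2 hz.le)).trans (by
      rw [div_mul_eq_mul_div, le_div_iff₀ h1]; exact hSμ))
    (not_le.1 h4).le (h3.trans hr₁)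
  have := h2 _ (norm_nonneg _) h3
  linarith

end Vale.Agent.P284Z.S
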