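import Vale.Agent.P284Z.Defs

/-! P284Z, block S: charts of two sheets, numerical lemmas. -/

open scoped Topology
open Filter Set Metric MeasureTheory

namespace Vale.Agent.P284Z.S

open Vale.Agent.P272.K

/-! ### numerical lemmas -/

theorem le_rpow_of_forall {v K s δ e : ℝ} (he : 0 < e) (hδ : 0 < δ) (hs : 0 ≤ s) (hsδ : s ≤ δ)
    (h : ∀ t, 0 < t → s ≤ t → t ≤ δ → v ≤ K * t ^ e) : v ≤ K * s ^ e := by
  rcases hs.eq_or_lt with h0 | h0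
  · subst h0
    have h1 : Tendsto (fun t : ℝ => K * t ^ e) (𝓝[>] 0) (𝓝 (K * (0 : ℝ) ^ e)) :=
      (((Real.continuousAt_rpow_const 0 e (Or.inr he.le)).tendsto).const_mul K).mono_left
        nhdsWithin_le_nhds
    refine ge_of_tendsto h1 ?_
    filter_upwards [Ioc_mem_nhdsGT hδ] with t ht using h t ht.1 ht.1.le ht.2
  · exact h s h0 le_rfl hsδ

theorem sb_num {κ₁ K r₁ c : ℝ} (hκ : 0 < κ₁) (hK : 0 < K) (hr : 0 < r₁) (hc : 0 < c) :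
    ∃ κ > (0 : ℝ), ∀ f g w : ℝ, 0 ≤ f → f ≤ 1 → 0 ≤ g → g ≤ 1 → 0 ≤ w →
      (∀ r, 0 < r → r ≤ r₁ → ∃ v, κ₁ * r ^ (2 * c / 3) < v ∧
        v * (f * g) ≤ 2 * max (K * r ^ c * g) (max w (K * r ^ c * f))) →
      κ * min f g ^ 3 * (f * g) ≤ w := by
  obtain ⟨κ₂, h2, h2a, h2b⟩ : ∃ κ₂ > (0 : ℝ), 2 * K * κ₂ ≤ κ₁ ∧ κ₂ ≤ r₁ ^ (c / 3) := by
    refine ⟨min (κ₁ / (2 * K)) (r₁ ^ (c / 3)), lt_min (by positivity) (by positivity), ?_,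
      min_le_right _ _⟩
    have := min_le_left (κ₁ / (2 * K)) (r₁ ^ (c / 3))
    rw [le_div_iff₀ (by positivity)] at this
    linarith
  refine ⟨κ₁ * κ₂ ^ 2 / 2, by positivity, fun f g w hf0 hf1 hg0 hg1 hw h => ?_⟩
  have hm0 : 0 ≤ min f g := le_min hf0 hg0
  rcases hm0.eq_or_lt with hm | hm
  · rw [← hm]; simpa using hw
  have hmf : min f g ≤ f := min_le_left _ _
  have hmg : min f g ≤ g := min_le_right _ _
  generalize min f g = m at *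
  have hf : 0 < f := hm.trans_le hmf
  have hg : 0 < g := hm.trans_le hmg
  have hm1 : m ≤ 1 := hmf.trans hf1
  have ht : 0 < κ₂ * m := by positivity
  have hc3 : 0 < c / 3 := by positivity
  have e1 : ((κ₂ * m) ^ (c / 3)⁻¹) ^ (2 * c / 3) = (κ₂ * m) ^ 2 := by
    rw [← Real.rpow_mul ht.le, ← Real.rpow_natCast]
    congr 1
    field_simp
    norm_num
  have e2 : ((κ₂ * m) ^ (c / 3)⁻¹) ^ c = (κ₂ * m) ^ 3 := by
    rw [← Real.rpow_mul ht.le, ← Real.rpow_natCast]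
    congr 1
    field_simp
    norm_num
  have e3 : (κ₂ * m) ^ (c / 3)⁻¹ ≤ r₁ := by
    rw [Real.rpow_inv_le_iff_of_pos ht.le hr.le hc3]
    exact (mul_le_of_le_one_right h2.le hm1).trans h2b
  obtain ⟨v, hv1, hv2⟩ := h _ (by positivity) e3
  rw [e1] at hv1
  rw [e2] at hv2
  have hv3 : κ₁ * (κ₂ * m) ^ 2 * (f * g) < v * (f * g) :=
    mul_lt_mul_of_pos_right hv1 (by positivity)
  have k1 : ∀ p q : ℝ, m ≤ p → 0 < q →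
      2 * (K * (κ₂ * m) ^ 3 * q) ≤ κ₁ * (κ₂ * m) ^ 2 * (p * q) := fun p q hp hq => by
    have : 2 * K * κ₂ * m ≤ κ₁ * p := mul_le_mul h2a hp hm.le hκ.le
    calc 2 * (K * (κ₂ * m) ^ 3 * q) = 2 * K * κ₂ * m * ((κ₂ * m) ^ 2 * q) := by ring
      _ ≤ κ₁ * p * ((κ₂ * m) ^ 2 * q) := mul_le_mul_of_nonneg_right this (by positivity)
      _ = _ := by ring
  have k2 := k1 f g hmf hg
  have k3 := k1 g f hmg hf
  rw [mul_comm g f] at k3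
  have k4 : κ₁ * (κ₂ * m) ^ 2 * (f * g) < 2 * w := by
    by_contra hcon
    have k5 : max (K * (κ₂ * m) ^ 3 * g) (max w (K * (κ₂ * m) ^ 3 * f)) ≤
        κ₁ * (κ₂ * m) ^ 2 * (f * g) / 2 :=
      max_le (by linarith) (max_le (by linarith) (by linarith))
    linarith
  have k6 : κ₁ * κ₂ ^ 2 / 2 * m ^ 3 * (f * g) = m * (κ₁ * (κ₂ * m) ^ 2 * (f * g)) / 2 := by ring
  have k7 : m * (κ₁ * (κ₂ * m) ^ 2 * (f * g)) ≤ κ₁ * (κ₂ * m) ^ 2 * (f * g) :=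
    mul_le_of_le_one_left (by positivity) hm1
  linarith

theorem tr_num {κ σ M v f₁ f₂ f₃ f₄ g p₁ p₃ ω : ℝ} (hκ : 0 < κ) (hσ : 0 < σ) (hM : 0 ≤ M)
    (hv : 0 ≤ v) (h10 : 0 ≤ f₁) (h11 : f₁ ≤ 1) (h40 : 0 ≤ f₄) (h41 : f₄ ≤ 1) (h2 : κ * σ ≤ f₂)
    (h3 : κ * σ ≤ f₃) (hg : κ * σ ≤ g) (hp₁ : p₁ ≤ M * σ ^ 2) (hp₃ : p₃ ≤ M * σ ^ 2)
    (hω : 0 ≤ ω) (hωg : ω * g ≤ M * σ ^ 4)
    (h : v * (f₂ * f₃) ≤ max (p₁ * (f₃ * f₄)) (max (ω * (f₁ * f₄)) (p₃ * (f₁ * f₂)))) :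
    v ≤ (M / κ + M / κ ^ 3) * σ := by
  have hκσ : 0 < κ * σ := by positivity
  have hf2 : 0 < f₂ := hκσ.trans_le h2
  have hf3 : 0 < f₃ := hκσ.trans_le h3
  have a1 : 0 ≤ M / κ * σ := by positivity
  have a2 : 0 ≤ M / κ ^ 3 * σ := by positivity
  have k1 : ∀ p e e' u : ℝ, p ≤ M * σ ^ 2 → κ * σ ≤ e → 0 < e' → 0 ≤ u → u ≤ 1 →
      v * (e * e') ≤ p * (e' * u) → v ≤ M / κ * σ := by
    intro p e e' u hp he he' hu0 hu1 hh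
    have b1 : p * (e' * u) ≤ M * σ ^ 2 * e' :=
      (mul_le_mul_of_nonneg_right hp (by positivity)).trans
        (mul_le_mul_of_nonneg_left (mul_le_of_le_one_right he'.le hu1) (by positivity))
    have b2 : v * (κ * σ) * e' ≤ v * (e * e') := by
      rw [mul_assoc]
      exact mul_le_mul_of_nonneg_left (mul_le_mul_of_nonneg_right he he'.le) hv
    have b3 : v * (κ * σ) ≤ M * σ ^ 2 := le_of_mul_le_mul_right (b2.trans (hh.trans b1)) he'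
    have b4 : M / κ * σ * (κ * σ) = M * σ ^ 2 := by field_simp
    exact le_of_mul_le_mul_right (b3.trans b4.ge) hκσ
  rw [add_mul]
  rcases le_max_iff.1 h with h | h
  · have := k1 p₁ f₂ f₃ f₄ hp₁ h2 hf3 h40 h41 h
    linarith
  rcases le_max_iff.1 h with h | h
  · have b1 : ω * (f₁ * f₄) ≤ ω := mul_le_of_le_one_right hω (mul_le_one₀ h11 h40 h41)
    have b2 : v * (κ * σ * (κ * σ)) ≤ v * (f₂ * f₃) :=
      mul_le_mul_of_nonneg_left (mul_le_mul h2 h3 hκσ.le hf2.le) hv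
    have b3 : ω * (κ * σ) ≤ M * σ ^ 4 := (mul_le_mul_of_nonneg_left hg hω).trans hωg
    have b4 : v * (κ * σ * (κ * σ)) * (κ * σ) ≤ M * σ ^ 4 :=
      (mul_le_mul_of_nonneg_right (b2.trans (h.trans b1)) hκσ.le).trans b3
    have b5 : M / κ ^ 3 * σ * (κ * σ * (κ * σ) * (κ * σ)) = M * σ ^ 4 := by field_simp
    rw [mul_assoc v] at b4
    have := le_of_mul_le_mul_right (b4.trans b5.ge) (by positivity)
    linarith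
  · have := k1 p₃ f₃ f₂ f₁ hp₃ h3 hf2 h10 h11 (by rwa [mul_comm f₃ f₂, mul_comm f₂ f₁])
    linarith

/-! ### charts -/

variable {n : ℕ} {Γ E : Type} [Group Γ] [TopologicalSpace E] [MulAction Γ E] {C : Cov n Γ E}

theorem pt_one (γ : Γ) (a : C.I) (z : Cm n) : C.pt γ a z = γ • C.pt 1 a z := by
  simp only [Cov.pt, one_smul]

theorem pt_two (γ₁ γ₂ : Γ) (a : C.I) (z : Cm n) : C.pt γ₂ a z = γ₁ • C.pt (γ₁⁻¹ * γ₂) a z := by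
  simp only [Cov.pt, smul_smul, mul_inv_cancel_left]

theorem cover (y : E) : ∃ (γ : Γ) (a : C.I), ∃ z ∈ C.B 1 a, y = C.pt γ a z := by
  obtain ⟨γ, a, z, hz, h⟩ := C.cover y
  exact ⟨γ, a, z, by rwa [Cov.B, one_mul], h⟩

theorem B_mono {k k' : ℝ} (h : k ≤ k') (a : C.I) : C.B k a ⊆ C.B k' a :=
  ball_subset_ball (mul_le_mul_of_nonneg_right h (C.r_pos a).le)

theorem mem_B {k : ℝ} {a : C.I} {z w : Cm n} (hz : z ∈ C.B 1 a) {t : ℝ} (hw : ‖w - z‖ ≤ t)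
    (ht : t ≤ (k - 1) * C.r a) : w ∈ C.B k a := by
  rw [Cov.B, mem_ball_iff_norm] at hz ⊢
  have := norm_sub_le_norm_sub_add_norm_sub w z (C.c a)
  linarith

theorem nhds_pt (γ : Γ) {a : C.I} {z : Cm n} (hz : z ∈ C.B 4 a) {δ : ℝ} (hδ : 0 < δ) :
    {y | ∃ w ∈ closedBall z δ, y = C.pt γ a w} ∈ 𝓝 (C.pt γ a z) := by
  have hz' : z ∈ (C.e a).target := by rw [C.tgt]; exact hz
  have h1 : (C.e a).source ∩ C.e a ⁻¹' ball z δ ∈ 𝓝 ((C.e a).symm z) := by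
    refine ((C.e a).isOpen_inter_preimage isOpen_ball).mem_nhds ⟨(C.e a).map_target hz', ?_⟩
    rw [mem_preimage, (C.e a).right_inv hz']
    exact mem_ball_self hδ
  have h2 : (fun y : E => γ⁻¹ • y) ⁻¹' ((C.e a).source ∩ C.e a ⁻¹' ball z δ) ∈
      𝓝 (C.pt γ a z) := by
    apply (C.cont γ⁻¹).continuousAt.preimage_mem_nhds
    rw [Cov.pt, inv_smul_smul]
    exact h1
  filter_upwards [h2] with y hy
  refine ⟨C.e a (γ⁻¹ • y), ball_subset_closedBall hy.2, ?_⟩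
  rw [Cov.pt, (C.e a).left_inv hy.1, smul_inv_smul]

theorem nhds_pt₂ (γ₁ γ₂ : Γ) {a b : C.I} {q : Cm n × Cm n} (h1 : q.1 ∈ C.B 4 a)
    (h2 : q.2 ∈ C.B 4 b) {δ : ℝ} (hδ : 0 < δ) :
    {p : E × E | ∃ w ∈ closedBall q δ, p = (C.pt γ₁ a w.1, C.pt γ₂ b w.2)} ∈
      𝓝 (C.pt γ₁ a q.1, C.pt γ₂ b q.2) := by
  filter_upwards [prod_mem_nhds (nhds_pt γ₁ h1 hδ) (nhds_pt γ₂ h2 hδ)] with p hp
  obtain ⟨⟨w₁, hw₁, e₁⟩, w₂, hw₂, e₂⟩ := hp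
  refine ⟨(w₁, w₂), ?_, Prod.ext e₁ e₂⟩
  rw [← Prod.mk.eta (p := q), ← closedBall_prod_same]
  exact ⟨hw₁, hw₂⟩

theorem fst_le {q q' : Cm n × Cm n} {t : ℝ} (h : ‖q' - q‖ ≤ t) : ‖q'.1 - q.1‖ ≤ t :=
  (norm_fst_le (q' - q)).trans h

theorem snd_le {q q' : Cm n × Cm n} {t : ℝ} (h : ‖q' - q‖ ≤ t) : ‖q'.2 - q.2‖ ≤ t :=
  (norm_snd_le (q' - q)).trans h

/-- the pole bound, on all the sheets, with a positive constant -/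
theorem pole_gen {W : E → E → ℝ} {K c : ℝ} (hinv : ∀ (γ : Γ) x y, W (γ • x) (γ • y) = W x y)
    (h : ∀ a, ∀ z ∈ C.B 3 a, ∀ z' ∈ C.B 3 a, W (C.pt 1 a z) (C.pt 1 a z') ≤ K * ‖z - z'‖ ^ c)
    (hc : 0 ≤ c) (γ : Γ) (a : C.I) {z z' : Cm n} (hz : z ∈ C.B 3 a) (hz' : z' ∈ C.B 3 a) {t : ℝ}
    (ht : ‖z - z'‖ ≤ t) : W (C.pt γ a z) (C.pt γ a z') ≤ max K 1 * t ^ c := by
  rw [pt_one γ a z, pt_one γ a z', hinv]
  refine (h a z hz z' hz').trans ?_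
  exact mul_le_mul (le_max_left _ _) (Real.rpow_le_rpow (norm_nonneg _) ht hc) (by positivity)
    (by positivity)

theorem diag_zero {W : E → E → ℝ} {K c : ℝ} (hinv : ∀ (γ : Γ) x y, W (γ • x) (γ • y) = W x y)
    (h : ∀ a, ∀ z ∈ C.B 3 a, ∀ z' ∈ C.B 3 a, W (C.pt 1 a z) (C.pt 1 a z') ≤ K * ‖z - z'‖ ^ c)
    (hc : 0 < c) (y : E) : W y y ≤ 0 := by
  obtain ⟨γ, a, z, hz, rfl⟩ := cover (C := C) y
  have h3 : z ∈ C.B 3 a := B_mono (by norm_num) a hz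
  have := pole_gen hinv h hc.le γ a h3 h3 (t := 0) (by simp)
  rwa [Real.zero_rpow hc.ne', mul_zero] at this

variable {D : LD C} {L : Lim D} (Z : ZD L)

theorem mem₂ (l : ℕ) (γ₁ γ₂ : Γ) {a b : C.I} {q : Cm n × Cm n} (h1 : q.1 ∈ C.B 4 a)
    (h2 : q.2 ∈ C.B 4 b) (h : ∃ K : ℝ, ∀ᶠ q' in 𝓝 q,
      L.W l (C.pt γ₁ a q'.1) (C.pt γ₂ b q'.2) ≤ K * ‖q' - q‖ ^ (D.c (l + 1) / 2)) :
    (C.pt γ₁ a q.1, C.pt γ₂ b q.2) ∈ Z.Z l := by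
  rw [pt_one γ₁, pt_two γ₁ γ₂]
  refine Z.inv l γ₁ _ _ (Z.mem l (γ₁⁻¹ * γ₂) a b q ⟨h1, h2⟩ (h.imp fun K hK => ?_))
  filter_upwards [hK] with q' hq'
  rwa [pt_one γ₁, pt_two γ₁ γ₂, L.W_inv] at hq'

theorem bound₂ (l : ℕ) : ∃ K > (0 : ℝ), ∀ (γ₁ γ₂ : Γ) (a b : C.I) (z₁ z₂ w₁ w₂ : Cm n) (t : ℝ),
    z₁ ∈ C.B 2 a → z₂ ∈ C.B 2 b → (C.pt γ₁ a z₁, C.pt γ₂ b z₂) ∈ Z.Z l → w₁ ∈ C.B 3 a →
    w₂ ∈ C.B 3 b → ‖w₁ - z₁‖ ≤ t → ‖w₂ - z₂‖ ≤ t →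
    L.W l (C.pt γ₁ a w₁) (C.pt γ₂ b w₂) ≤ K * t ^ Z.c' l := by
  obtain ⟨K, hK⟩ := Z.bound l
  refine ⟨max K 1, by positivity, fun γ₁ γ₂ a b z₁ z₂ w₁ w₂ t h1 h2 h3 h4 h5 h6 h7 => ?_⟩
  have h8 := Z.inv l γ₁⁻¹ _ _ h3
  rw [pt_one γ₁, pt_two γ₁ γ₂, inv_smul_smul, inv_smul_smul] at h8
  have h9 := hK (γ₁⁻¹ * γ₂) a b (z₁, z₂) ⟨h1, h2⟩ h8 (w₁, w₂) ⟨h4, h5⟩
  rw [pt_one γ₁, pt_two γ₁ γ₂, L.W_inv]
  refine h9.trans (mul_le_mul (le_max_left _ _)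
    (Real.rpow_le_rpow (norm_nonneg _) ?_ (Z.c'_pos l).le) (by positivity) (by positivity))
  rw [Prod.mk_sub_mk, Prod.norm_def]
  exact max_le h6 h7

theorem lim_mono (L : Lim D) {l l' : ℕ} (h : l ≤ l') (x y : E) : L.W l x y ≤ L.W l' x y :=
  monotone_nat_of_le_succ (f := fun l => L.W l x y) (fun l => L.mono l x y) h

end Vale.Agent.P284Z.S
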